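import Vale.Agent.P015.H416.SoftWin
import Vale.Agent.P015.H586.Levsel
import Vale.Agent.P015.R2.H116.Defs

/-! Points of blocks, level averages and level selection for soft windows. -/

namespace Vale.Agent.P015.H301

open Finset Vale.Agent.P015.H222 Vale.Agent.P015.H416

/-- the points of the blocks `j ∈ J` -/
def pts (g : ℕ → ℤ × ℤ) (l : ℕ) (J : Finset ℕ) : Finset (ℤ × ℤ) :=
  (J ×ˢ range l).image (fun x => g (x.1 * l + x.2))

/-- level average of the relative mass of the block `j` -/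
noncomputable def lav (B : ℕ) (r : ℕ → ℤ) (k0 l : ℕ) (g : ℕ → ℤ × ℤ) (P : ℕ → Finset ℕ)
    (q : ∀ p : ℕ, ZMod p → ℝ) (j : ℕ) : ℝ :=
  ∑ k ∈ Ico k0 (B * k0), 1 / (k : ℝ) * av (P k) (fun p => rel r q g l p j)

theorem idx_inj {l : ℕ} {j j' i i' : ℕ} (hi : i < l) (hi' : i' < l)
    (h : j * l + i = j' * l + i') : j = j' ∧ i = i' := by
  have hl : 0 < l := by omega
  have h1 : (j * l + i) / l = j := by
    rw [Nat.mul_comm, Nat.mul_add_div hl, Nat.div_eq_of_lt hi, Nat.add_zero]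
  have h2 : (j' * l + i') / l = j' := by
    rw [Nat.mul_comm, Nat.mul_add_div hl, Nat.div_eq_of_lt hi', Nat.add_zero]
  have h3 : j = j' := by rw [← h1, ← h2, h]
  subst h3
  exact ⟨rfl, by omega⟩

theorem injOn_pts {D : ℕ} {g : ℕ → ℤ × ℤ} (hg : IPath D g) (l : ℕ) (J : Finset ℕ) :
    Set.InjOn (fun x : ℕ × ℕ => g (x.1 * l + x.2)) ((J ×ˢ range l : Finset (ℕ × ℕ)) : Set (ℕ × ℕ)) := by
  intro x hx y hy hxy
  rw [Finset.mem_coe, Finset.mem_product, Finset.mem_range] at hx hy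
  have h1 := hg.inj hxy
  obtain ⟨h2, h3⟩ := idx_inj hx.2 hy.2 h1
  exact Prod.ext h2 h3

theorem card_pts {D : ℕ} {g : ℕ → ℤ × ℤ} (hg : IPath D g) (l : ℕ) (J : Finset ℕ) :
    (pts g l J).card = J.card * l := by
  rw [pts, Finset.card_image_of_injOn (injOn_pts hg l J), Finset.card_product, Finset.card_range]

theorem sum_pts {D : ℕ} {g : ℕ → ℤ × ℤ} (hg : IPath D g) (l : ℕ) (J : Finset ℕ)
    (F : ℤ × ℤ → ℝ) :
    ∑ w ∈ pts g l J, F w = ∑ j ∈ J, ∑ i ∈ range l, F (g (j * l + i)) := by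
  rw [pts, Finset.sum_image (injOn_pts hg l J), Finset.sum_product]

theorem mass_eq {D : ℕ} {g : ℕ → ℤ × ℤ} (hg : IPath D g) {l : ℕ} (hl : 1 ≤ l) (J : Finset ℕ)
    (r : ℕ → ℤ) (q : ∀ p : ℕ, ZMod p → ℝ) (p : ℕ) :
    (p : ℝ) * ∑ w ∈ pts g l J, qa r q p w = l * ∑ j ∈ J, rel r q g l p j := by
  have hl0 : (l : ℝ) ≠ 0 := by
    have : 0 < l := hl
    positivity
  rw [sum_pts hg l J, Finset.mul_sum, Finset.mul_sum]
  refine Finset.sum_congr rfl (fun j _ => ?_)
  rw [rel]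
  field_simp

theorem pts_mono {g : ℕ → ℤ × ℤ} {l : ℕ} {J J' : Finset ℕ} (h : J ⊆ J') : pts g l J ⊆ pts g l J' := by
  rw [pts, pts]
  exact Finset.image_subset_image (Finset.product_subset_product h (Finset.Subset.refl _))

section

variable {A B : ℕ} {ρ ε : ℝ} {r : ℕ → ℤ} {k0 l Nb : ℕ} {g : ℕ → ℤ × ℤ}
  {P : ℕ → Finset ℕ} {q : ∀ p : ℕ, ZMod p → ℝ} {β : ℕ → ℝ}

theorem rel_nonneg (h : SoftWin A B ρ ε r k0 l Nb g P q β) {k : ℕ} (hk : k ∈ Ico k0 (B * k0))
    {p : ℕ} (hp : p ∈ P k) (j : ℕ) : 0 ≤ rel r q g l p j := by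
  rw [rel]
  refine mul_nonneg (by positivity) (Finset.sum_nonneg (fun i _ => ?_))
  exact h.nonneg k hk p hp _

theorem av_nonneg {P : Finset ℕ} {f : ℕ → ℝ} (h : ∀ p ∈ P, 0 ≤ f p) : 0 ≤ av P f := by
  rw [av]
  exact div_nonneg (Finset.sum_nonneg h) (Nat.cast_nonneg _)

theorem lav_nonneg (h : SoftWin A B ρ ε r k0 l Nb g P q β) (j : ℕ) : 0 ≤ lav B r k0 l g P q j := by
  rw [lav]
  refine Finset.sum_nonneg (fun k hk => mul_nonneg (by positivity) (av_nonneg (fun p hp => ?_)))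
  exact rel_nonneg h hk hp j

theorem P_nonempty (h : SoftWin A B ρ ε r k0 l Nb g P q β) (hρ : 0 < ρ) (hA : 2 ≤ A) {k : ℕ}
    (hk : k ∈ Ico k0 (B * k0)) : (P k).Nonempty := by
  rw [Finset.nonempty_iff_ne_empty]
  intro h0
  have h1 := h.many k hk
  rw [h0, Finset.card_empty, Nat.cast_zero, mul_zero] at h1
  have h2 : (0 : ℝ) < A := by
    have : 0 < A := by omega
    exact_mod_cast this
  have h3 : 0 < ρ * (A : ℝ) ^ k := by positivity
  linarith

/-- **Level selection for a union of good blocks.** -/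
theorem select (h : SoftWin A B ρ ε r k0 l Nb g P q β) {D : ℕ} (hg : IPath D g) (hA : 2 ≤ A)
    (hρ : 0 < ρ) {J : Finset ℕ} (hJ : J.Nonempty) {e : ℝ}
    (hgood : ∀ j ∈ J, lav B r k0 l g P q j ≤ e) {a b : ℕ} (ha : k0 ≤ a) (hb : b ≤ B * k0)
    {θ s t : ℝ} (hθ : 0 < θ) (hS : θ ≤ ∑ k ∈ Ico a b, 1 / (k : ℝ)) (hs : 0 < s) (ht : 0 < t)
    (he : 4 * e ≤ θ * s) (hε : 4 * ε ≤ θ * t) :
    ∃ k ∈ Ico a b, ∃ P' ⊆ P k, (P k).card ≤ 2 * P'.card ∧ ∀ p ∈ P',
      (p : ℝ) * ∑ w ∈ pts g l J, qa r q p w ≤ s * (pts g l J).card ∧ β p ≤ t := by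
  have hsub : Ico a b ⊆ Ico k0 (B * k0) := Finset.Ico_subset_Ico ha hb
  have hJ0 : (0 : ℝ) < J.card := by exact_mod_cast hJ.card_pos
  obtain ⟨k, hk, P', hP', hc, hp⟩ := H586.levsel (Ico a b) (fun k => 1 / (k : ℝ))
    (fun k _ => by positivity) hθ hS P (fun k hk => P_nonempty h hρ hA (hsub hk))
    (fun _ p => (∑ j ∈ J, rel r q g l p j) / J.card) (fun _ p => β p)
    (fun k hk p hp => div_nonneg (Finset.sum_nonneg (fun j _ => rel_nonneg h (hsub hk) hp j)) hJ0.le)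
    (fun k hk p hp => (h.beta k (hsub hk) p hp).1) hs ht
    (by
      refine le_trans (mul_le_mul_of_nonneg_left ?_ (by norm_num)) he
      have e1 : ∑ k ∈ Ico a b, 1 / (k : ℝ) * ((∑ p ∈ P k, (∑ j ∈ J, rel r q g l p j) / J.card)
          / (P k).card) = (∑ j ∈ J, ∑ k ∈ Ico a b, 1 / (k : ℝ) *
            av (P k) (fun p => rel r q g l p j)) / J.card := by
        rw [Finset.sum_comm, Finset.sum_div]
        refine Finset.sum_congr rfl (fun k _ => ?_)
        rw [← Finset.sum_div, ← Finset.mul_sum]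
        simp only [av]
        rw [← Finset.sum_div, Finset.sum_comm]
        ring
      rw [e1, div_le_iff₀ hJ0]
      calc ∑ j ∈ J, ∑ k ∈ Ico a b, 1 / (k : ℝ) * av (P k) (fun p => rel r q g l p j)
          ≤ ∑ j ∈ J, e := by
            refine Finset.sum_le_sum (fun j hj => le_trans ?_ (hgood j hj))
            rw [lav]
            refine Finset.sum_le_sum_of_subset_of_nonneg hsub (fun k hk _ => ?_)
            exact mul_nonneg (by positivity) (av_nonneg (fun p hp => rel_nonneg h hk hp j))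
        _ = e * J.card := by rw [Finset.sum_const, nsmul_eq_mul, mul_comm])
    (by
      refine le_trans (mul_le_mul_of_nonneg_left ?_ (by norm_num)) hε
      refine le_trans ?_ h.avbeta
      refine Finset.sum_le_sum_of_subset_of_nonneg hsub (fun k hk _ => ?_)
      exact mul_nonneg (by positivity) (av_nonneg (fun p hp => (h.beta k hk p hp).1)))
  refine ⟨k, hk, P', hP', hc, fun p hp' => ?_⟩
  obtain ⟨h1, h2⟩ := hp p hp'
  refine ⟨?_, h2⟩
  rw [mass_eq hg h.l_pos, card_pts hg]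
  rw [div_le_iff₀ hJ0] at h1
  have hl0 : (0 : ℝ) ≤ l := Nat.cast_nonneg _
  calc (l : ℝ) * ∑ j ∈ J, rel r q g l p j ≤ l * (s * J.card) := mul_le_mul_of_nonneg_left h1 hl0
    _ = s * ((J.card * l : ℕ) : ℝ) := by push_cast; ring

/-- Markov: few blocks are bad. -/
theorem card_bad (h : SoftWin A B ρ ε r k0 l Nb g P q β) {e : ℝ} :
    e * (((range Nb).filter (fun j => e < lav B r k0 l g P q j)).card : ℝ) ≤ ε * Nb := by
  classical
  refine le_trans ?_ h.avrel
  calc e * (((range Nb).filter (fun j => e < lav B r k0 l g P q j)).card : ℝ)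
      = ∑ j ∈ (range Nb).filter (fun j => e < lav B r k0 l g P q j), e := by
        rw [Finset.sum_const, nsmul_eq_mul, mul_comm]
    _ ≤ ∑ j ∈ (range Nb).filter (fun j => e < lav B r k0 l g P q j), lav B r k0 l g P q j :=
        Finset.sum_le_sum (fun j hj => (Finset.mem_filter.mp hj).2.le)
    _ ≤ ∑ j ∈ range Nb, lav B r k0 l g P q j :=
        Finset.sum_le_sum_of_subset_of_nonneg (Finset.filter_subset _ _)
          (fun j _ _ => lav_nonneg h j)

end

/-- sums over residues: `range p` versus `ZMod p` -/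
theorem sum_range_zmod {p : ℕ} [NeZero p] (f : ZMod p → ℝ) :
    ∑ c ∈ range p, f (c : ZMod p) = ∑ c : ZMod p, f c := by
  refine Finset.sum_bij (fun c _ => (c : ZMod p)) (fun _ _ => Finset.mem_univ _) ?_ ?_
    (fun _ _ => rfl)
  · intro a ha b hb hab
    rw [Finset.mem_range] at ha hb
    have h1 := congrArg ZMod.val hab
    rwa [ZMod.val_natCast, ZMod.val_natCast, Nat.mod_eq_of_lt ha, Nat.mod_eq_of_lt hb] at h1
  · intro c _
    exact ⟨c.val, Finset.mem_range.mpr (ZMod.val_lt c), ZMod.natCast_zmod_val c⟩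

theorem sum_shift {p : ℕ} (hp : 0 < p) (f : ZMod p → ℝ) (a : ZMod p) :
    ∑ c ∈ range p, f ((c : ZMod p) + a) = ∑ c ∈ range p, f (c : ZMod p) := by
  have : NeZero p := ⟨hp.ne'⟩
  rw [sum_range_zmod (fun c => f (c + a)), sum_range_zmod f]
  exact Fintype.sum_equiv (Equiv.addRight a) _ _ (fun _ => rfl)

/-- dyadic pigeonhole in a level -/
theorem dyadic {A k : ℕ} {P' : Finset ℕ} (hrng : ∀ p ∈ P', A ^ k < p ∧ p ≤ A ^ (k + 1)) :
    ∃ Q : ℕ, ∃ P'' ⊆ P', P'.card ≤ A * P''.card ∧ (∀ p ∈ P'', Q ≤ 2 * p ∧ p ≤ Q) ∧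
      (P''.Nonempty → A ^ k ≤ Q ∧ Q ≤ 2 * A ^ (k + 1)) := by
  classical
  set S : ℕ → Finset ℕ := fun i => P'.filter (fun p => A ^ k * 2 ^ i < p ∧ p ≤ A ^ k * 2 ^ (i + 1))
    with hS
  have hcov : P' ⊆ (range A).biUnion S := by
    intro p hp
    obtain ⟨h1, h2⟩ := hrng p hp
    have hA0 : 0 < A := by
      rcases Nat.eq_zero_or_pos A with h0 | h0
      · exfalso
        rw [h0] at h2
        rw [h0, Nat.zero_pow (Nat.succ_pos k)] at *
        omega
      · exact h0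
    have hex : ∃ i, p ≤ A ^ k * 2 ^ (i + 1) := by
      refine ⟨A, h2.trans ?_⟩
      rw [pow_succ]
      refine Nat.mul_le_mul_left _ ?_
      exact (Nat.lt_two_pow_self).le.trans (Nat.pow_le_pow_right (by norm_num) (Nat.le_succ _))
    rw [Finset.mem_biUnion]
    refine ⟨Nat.find hex, ?_, ?_⟩
    · rw [Finset.mem_range]
      by_contra hcon
      push Not at hcon
      have h3 := Nat.find_min hex (m := A - 1) (by omega)
      apply h3
      rw [Nat.sub_add_cancel hA0]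
      refine h2.trans ?_
      rw [pow_succ]
      exact Nat.mul_le_mul_left _ (Nat.lt_two_pow_self).le
    · rw [hS, Finset.mem_filter]
      refine ⟨hp, ?_, Nat.find_spec hex⟩
      rcases Nat.eq_zero_or_pos (Nat.find hex) with h0 | h0
      · rw [h0, pow_zero, mul_one]
        exact h1
      · have h3 := Nat.find_min hex (m := Nat.find hex - 1) (by omega)
        rw [Nat.sub_add_cancel h0] at h3
        omega
  have hsum : P'.card ≤ ∑ i ∈ range A, (S i).card :=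
    (Finset.card_le_card hcov).trans Finset.card_biUnion_le
  rcases Nat.eq_zero_or_pos A with hA0 | hA0
  · rw [hA0] at hsum
    simp only [Finset.range_zero, Finset.sum_empty, Nat.le_zero, Finset.card_eq_zero] at hsum
    exact ⟨0, ∅, Finset.empty_subset _, by rw [hsum]; simp, by simp, by simp⟩
  obtain ⟨i, hi, hmax⟩ := Finset.exists_max_image (range A) (fun i => (S i).card)
    ⟨0, Finset.mem_range.mpr hA0⟩
  refine ⟨A ^ k * 2 ^ (i + 1), S i, Finset.filter_subset _ _, ?_, ?_, ?_⟩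
  · refine hsum.trans ((Finset.sum_le_card_nsmul _ _ _ hmax).trans ?_)
    rw [Finset.card_range, smul_eq_mul]
  · intro p hp
    rw [hS, Finset.mem_filter] at hp
    refine ⟨?_, hp.2.2⟩
    have := hp.2.1
    rw [pow_succ]
    nlinarith
  · rintro ⟨p, hp⟩
    rw [hS, Finset.mem_filter] at hp
    obtain ⟨hp1, hp2, hp3⟩ := hp
    refine ⟨Nat.le_mul_of_pos_right _ (by positivity), ?_⟩
    have h3 := (hrng p hp1).2
    rw [pow_succ 2 i]
    nlinarith

end Vale.Agent.P015.H301
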