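import Vale.Agent.P015.H301.NoWin
import Vale.Agent.P015.H65.Comb
import Vale.Agent.P015.H141.TwoLevel
import Vale.Agent.P015.H97.SoftL1

/-! `Spec_NOWIN`, unconditionally. -/

namespace Vale.Agent.P015.H301

open Finset Vale.Agent.P006.CLS Vale.Agent.P015.H222 Vale.Agent.P015.R2.H116 Vale.Agent.P015.H141

/-- the soft first level estimate (statement `H141.SoftL1`) -/
theorem softL1 : H141.SoftL1 := by
  obtain ⟨a, ha⟩ := H97.soft_L1
  refine ⟨a, fun Λ W K Q hW r P hL q hq hΛQ hQK f hf1 hm => ?_⟩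
  exact ha Λ W K Q hW r P hL.rts (fun p hp => (hL.rng p hp).2) hL.many q hq.nonneg hq.one
    (fun p hp => H97.sq_sum_le (hq.nonneg p hp) (hq.one p hp) (hq.sup p hp)) hΛQ hQK f hf1 hm

theorem spec_nowin : H416.Spec_NOWIN := nowin (H65.comb (H141.twoLevel softL1))

end Vale.Agent.P015.H301
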