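import Vale.Agent.P015.H586.UpWin
import Vale.Agent.P015.H938.CutPiece
import Vale.Agent.P015.H301.Basic
import Vale.Agent.P015.H141.Defs

/-! Soft windows do not exist (from the deterministic two-level contradiction). -/

namespace Vale.Agent.P015.H301

open Finset Vale.Agent.P006.CLS Vale.Agent.P015.H222 Vale.Agent.P015.H416 Vale.Agent.P015.R2.H116
open Vale.Agent.P015.H141 (Up Law)

/-- The two-level contradiction for upper regular sets with few cells (statement of H65). -/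
def Comb : Prop := ∃ E : ℕ, 1 ≤ E ∧ ∀ (Λ : ℝ) (W : Finset (ℤ × ℤ)) (K A x₀ x : ℕ),
    Up W K Λ → 2 ≤ A → (A : ℝ) ≤ Λ →
    ∀ (r : ℕ → ℤ) (P₀ P : Finset ℕ) (q₀ q : ∀ p : ℕ, ZMod p → ℝ), Rts r P₀ → Rts r P →
    (∀ p ∈ P₀, x₀ < p ∧ p ≤ A * x₀) → (∀ p ∈ P, x < p ∧ p ≤ A * x) →
    ((x₀ : ℝ) ≤ Λ * P₀.card) → ((x : ℝ) ≤ Λ * P.card) → Law Λ P₀ q₀ → Law Λ P q →
    (∀ p ∈ P₀, 16 * (p * ∑ w ∈ W, H141.qa r q₀ p w) ≤ W.card) →
    (∀ p ∈ P, 16 * (p * ∑ w ∈ W, H141.qa r q p w) ≤ W.card) →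
    Λ ^ E ≤ x₀ → (2 * A * x₀) ^ 3 ≤ x → (2 * A * x) ^ 4 ≤ K → False

/-- laws seen from the point `z` -/
def shq (r : ℕ → ℤ) (q : ∀ p : ℕ, ZMod p → ℝ) (z : ℤ × ℤ) : ∀ p : ℕ, ZMod p → ℝ :=
  fun p c => q p (c + ((lf (r p) z : ℤ) : ZMod p))

theorem qa_shq (r : ℕ → ℤ) (q : ∀ p : ℕ, ZMod p → ℝ) (z : ℤ × ℤ) (p : ℕ) (w : ℤ × ℤ) :
    qa r (shq r q z) p (w - z) = qa r q p w := by
  rw [qa, qa, shq]
  congr 1
  rw [lf, lf, lf]
  simp only [Prod.fst_sub, Prod.snd_sub]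
  push_cast
  ring

theorem rel_shq (r : ℕ → ℤ) (q : ∀ p : ℕ, ZMod p → ℝ) (g : ℕ → ℤ × ℤ) (z : ℤ × ℤ) (l p j : ℕ) :
    rel r (shq r q z) (fun n => g n - z) l p j = rel r q g l p j := by
  rw [rel, rel]
  simp only [qa_shq]

theorem IPath.shift {D : ℕ} {g : ℕ → ℤ × ℤ} (hg : IPath D g) (z : ℤ × ℤ) :
    IPath D (fun n => g n - z) := by
  refine ⟨fun m n h => hg.inj (sub_left_injective h), fun n => ?_⟩
  have h := hg.step n
  simp only [Prod.fst_sub, Prod.snd_sub]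
  rw [sub_sub_sub_cancel_right, sub_sub_sub_cancel_right]
  exact h

theorem IPath.mono {D D' : ℕ} (h : D ≤ D') {g : ℕ → ℤ × ℤ} (hg : IPath D g) : IPath D' g := by
  refine ⟨hg.inj, fun n => ?_⟩
  have h1 := hg.step n
  have h2 : (D : ℤ) ≤ D' := by exact_mod_cast h
  exact ⟨h1.1.trans h2, h1.2.trans h2⟩

theorem SoftWin.shift {A B : ℕ} {ρ ε : ℝ} {r : ℕ → ℤ} {k0 l Nb : ℕ} {g : ℕ → ℤ × ℤ}
    {P : ℕ → Finset ℕ} {q : ∀ p : ℕ, ZMod p → ℝ} {β : ℕ → ℝ}
    (h : SoftWin A B ρ ε r k0 l Nb g P q β) (z : ℤ × ℤ) :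
    SoftWin A B ρ ε r k0 l Nb (fun n => g n - z) P (shq r q z) β where
  l_pos := h.l_pos
  l_le := h.l_le
  long := h.long
  rts := h.rts
  rng := h.rng
  many := h.many
  nonneg := fun k hk p hp c => h.nonneg k hk p hp _
  one := fun k hk p hp => by
    have hp0 : 0 < p := (h.rts k hk p hp).1.pos
    have := sum_shift hp0 (q p) ((lf (r p) z : ℤ) : ZMod p)
    simp only [shq]
    rw [this]
    exact h.one k hk p hp
  beta := h.beta
  sup := fun k hk p hp c => h.sup k hk p hp _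
  avbeta := h.avbeta
  avrel := by
    simp only [rel_shq]
    exact h.avrel

theorem step_box {D : ℕ} {g : ℕ → ℤ × ℤ} (hg : IPath D g) (n : ℕ) : g (n + 1) - g n ∈ box D := by
  rw [mem_box]
  have h := hg.step n
  rw [abs_le, abs_le] at h
  simp only [Prod.fst_sub, Prod.snd_sub]
  exact h

/-! ### numeric facts -/

/-- all size conditions on `k0` -/
structure Big (A B D k0 : ℕ) (ρ : ℝ) : Prop where
  k4 : 6 ≤ k0
  d : 3 * D ≤ A ^ k0
  ld : k0 ^ 4 * D ≤ A ^ (B * k0)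
  cut : 24 * k0 ^ 4 < A ^ (B * k0)
  c0 : C0 ≤ (A : ℝ) ^ (3 * k0)
  lg : A * B * k0 + 1 ≤ A ^ (3 * k0)
  cells : 45 * D ≤ A ^ (2 * k0)
  many : 2 * (B * k0) ≤ ρ * (A : ℝ) ^ (3 * k0)

theorem exists_big {A B D : ℕ} {ρ : ℝ} (hA : 2 ≤ A) (hB : 1 ≤ B) (hρ : 0 < ρ) :
    ∃ K0 : ℕ, ∀ k0 ≥ K0, Big A B D k0 ρ := by
  obtain ⟨K1, h1⟩ := H586.eventually_pow_le (45 * D + 3 * D) 0
  obtain ⟨K2, h2⟩ := H586.eventually_pow_le (D + 25) 4
  obtain ⟨K3, h3⟩ := H586.eventually_pow_le C0 0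
  obtain ⟨K4, h4⟩ := H586.eventually_pow_le (A * B + 1) 1
  obtain ⟨K5, h5⟩ := H586.eventually_pow_le (2 * B / ρ) 1
  refine ⟨K1 + K2 + K3 + K4 + K5 + 6, fun k0 hk => ?_⟩
  have hk6 : 6 ≤ k0 := by omega
  have e1 := h1 k0 (by omega)
  have e2 := h2 k0 (by omega)
  have e3 := h3 k0 (by omega)
  have e4 := h4 k0 (by omega)
  have e5 := h5 k0 (by omega)
  rw [pow_zero, mul_one] at e1 e3
  rw [pow_one] at e4 e5
  have hA2 : (2 : ℝ) ≤ A := by exact_mod_cast hA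
  have hA1 : (1 : ℝ) ≤ A := by linarith
  have p1 : (2 : ℝ) ^ k0 ≤ (A : ℝ) ^ k0 := pow_le_pow_left₀ (by norm_num) hA2 k0
  have pm : ∀ a b : ℕ, a ≤ b → (A : ℝ) ^ a ≤ (A : ℝ) ^ b := fun a b h => pow_le_pow_right₀ hA1 h
  have q2 : (A : ℝ) ^ k0 ≤ (A : ℝ) ^ (2 * k0) := pm _ _ (by omega)
  have q3 : (A : ℝ) ^ k0 ≤ (A : ℝ) ^ (3 * k0) := pm _ _ (by omega)
  have qB : (A : ℝ) ^ k0 ≤ (A : ℝ) ^ (B * k0) := pm _ _ (Nat.le_mul_of_pos_left _ hB)
  have hD0 : (0 : ℝ) ≤ D := Nat.cast_nonneg _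
  have hk0 : (0 : ℝ) ≤ (k0 : ℝ) ^ 4 := by positivity
  have hk1 : (1 : ℝ) ≤ k0 := by
    have : 1 ≤ k0 := by omega
    exact_mod_cast this
  have hk41 : (1 : ℝ) ≤ (k0 : ℝ) ^ 4 := one_le_pow₀ hk1
  refine ⟨hk6, ?_, ?_, ?_, ?_, ?_, ?_, ?_⟩
  · have : (3 * D : ℝ) ≤ (A : ℝ) ^ k0 := by linarith
    exact_mod_cast this
  · have : ((k0 : ℝ) ^ 4 * D : ℝ) ≤ (A : ℝ) ^ (B * k0) := by nlinarith
    exact_mod_cast this
  · have : (24 * (k0 : ℝ) ^ 4 : ℝ) < (A : ℝ) ^ (B * k0) := by nlinarith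
    exact_mod_cast this
  · linarith
  · have hAB : (0 : ℝ) ≤ (A : ℝ) * B := by positivity
    have : ((A : ℝ) * B * k0 + 1 : ℝ) ≤ (A : ℝ) ^ (3 * k0) := by nlinarith
    exact_mod_cast this
  · have : (45 * D : ℝ) ≤ (A : ℝ) ^ (2 * k0) := by linarith
    exact_mod_cast this
  · rw [div_mul_eq_mul_div, div_le_iff₀ hρ] at e5
    have h6 : (2 : ℝ) ^ k0 * ρ ≤ (A : ℝ) ^ (3 * k0) * ρ :=
      mul_le_mul_of_nonneg_right (p1.trans q3) hρ.le
    linarith

section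

variable {A B : ℕ} {ρ ε : ℝ} {r : ℕ → ℤ} {k0 l Nb : ℕ} {g : ℕ → ℤ × ℤ}
  {P : ℕ → Finset ℕ} {q : ∀ p : ℕ, ZMod p → ℝ} {β : ℕ → ℝ}

/-- the laws of the window are bounded at the selected primes -/
theorem law_of (h : SoftWin A B ρ ε r k0 l Nb g P q β) (hA : 2 ≤ A) (hB : 1 ≤ B) {k : ℕ}
    (hk : k ∈ Ico k0 (B * k0)) {P' : Finset ℕ} (hP' : P' ⊆ P k)
    (hβ : ∀ p ∈ P', β p ≤ 1 / B) : Law ((A : ℝ) ^ (3 * k0)) P' q := by
  refine ⟨fun p hp c => h.nonneg k hk p (hP' hp) c, fun p hp => h.one k hk p (hP' hp),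
    fun p hp c => ?_⟩
  refine (h.sup k hk p (hP' hp) c).trans ?_
  have hp0 : 0 < p := (h.rts k hk p (hP' hp)).1.pos
  have hp1 : (1 : ℝ) ≤ p := by exact_mod_cast hp0
  have hA1 : (1 : ℝ) ≤ A := by
    have : 1 ≤ A := by omega
    exact_mod_cast this
  have hA0 : (0 : ℝ) < A := by linarith
  have hB0 : (0 : ℝ) < B := by exact_mod_cast hB
  have h1 : (p : ℝ) ≤ (A : ℝ) ^ (B * k0) := by
    have h2 := (h.rng k hk p (hP' hp)).2
    have h3 : A ^ (k + 1) ≤ A ^ (B * k0) :=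
      Nat.pow_le_pow_right (by omega) (by rw [Finset.mem_Ico] at hk; omega)
    exact_mod_cast h2.trans h3
  calc (p : ℝ) ^ β p ≤ (p : ℝ) ^ (1 / (B : ℝ)) :=
        Real.rpow_le_rpow_of_exponent_le hp1 (hβ p hp)
    _ ≤ ((A : ℝ) ^ (B * k0)) ^ (1 / (B : ℝ)) :=
        Real.rpow_le_rpow (by linarith) h1 (by positivity)
    _ = (A : ℝ) ^ k0 := by
        rw [← Real.rpow_natCast (A : ℝ) (B * k0), ← Real.rpow_mul hA0.le,
          ← Real.rpow_natCast (A : ℝ) k0]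
        congr 1
        push_cast
        field_simp
    _ ≤ (A : ℝ) ^ (3 * k0) := pow_le_pow_right₀ hA1 (by omega)

/-- many primes are selected -/
theorem many_of {D : ℕ} (h : SoftWin A B ρ ε r k0 l Nb g P q β) (hρ : 0 < ρ)
    (hb : Big A B D k0 ρ) {k : ℕ}
    (hk : k ∈ Ico k0 (B * k0)) {P' : Finset ℕ} (hc : (P k).card ≤ 2 * P'.card) :
    ((A ^ k : ℕ) : ℝ) ≤ (A : ℝ) ^ (3 * k0) * P'.card := by
  have h1 := h.many k hk
  have h2 : ((P k).card : ℝ) ≤ 2 * P'.card := by exact_mod_cast hc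
  have h3 : (k : ℝ) ≤ B * k0 := by
    rw [Finset.mem_Ico] at hk
    have := hk.2.le
    exact_mod_cast this
  have h4 := hb.many
  have hP0 : (0 : ℝ) ≤ P'.card := Nat.cast_nonneg _
  have h5 : ρ * (A : ℝ) ^ k ≤ ρ * ((A : ℝ) ^ (3 * k0) * P'.card) := by
    calc ρ * (A : ℝ) ^ k ≤ k * (P k).card := h1
      _ ≤ (B * k0) * (2 * P'.card) := mul_le_mul h3 h2 (Nat.cast_nonneg _) (by positivity)
      _ = (2 * (B * k0)) * P'.card := by ring
      _ ≤ (ρ * (A : ℝ) ^ (3 * k0)) * P'.card := mul_le_mul_of_nonneg_right h4 hP0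
      _ = _ := by ring
  push_cast
  exact le_of_mul_le_mul_left h5 hρ

/-- the union of the good blocks of a piece is upper regular with few cells -/
theorem up_of (hA : 2 ≤ A) {D : ℕ} (hD : 1 ≤ D) (hb : Big A B D k0 ρ)
    {W : Finset (ℤ × ℤ)} (hbox : ∀ w ∈ W, w ∈ box (A ^ (B * k0)))
    (hsize : A ^ (B * k0) ≤ 3 * D * W.card)
    (hup : ∀ (z : ℤ × ℤ) (m : ℕ), A ^ (2 * k0) ≤ m → m ≤ A ^ (B * k0) →
      ((W.filter (fun w => w - z ∈ box m)).card : ℝ) ≤ (A : ℝ) ^ k0 * m) (hB2 : 2 ≤ B)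
    (hcells : ∀ m, 1 ≤ m → m * (W.image (R2.H116.cell m)).card ≤ 9 * (4 * D * W.card + m)) :
    Up W (A ^ (B * k0)) ((A : ℝ) ^ (3 * k0)) := by
  have hA1 : (1 : ℝ) ≤ A := by
    have : 1 ≤ A := by omega
    exact_mod_cast this
  have hA2 : (2 : ℝ) ≤ A := by exact_mod_cast hA
  have hk := hb.k4
  have pm : ∀ a b : ℕ, a ≤ b → (A : ℝ) ^ a ≤ (A : ℝ) ^ b := fun a b h => pow_le_pow_right₀ hA1 h
  have h64 : (64 : ℝ) ≤ (A : ℝ) ^ k0 := by
    calc (64 : ℝ) = 2 ^ 6 := by norm_num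
      _ ≤ (A : ℝ) ^ 6 := pow_le_pow_left₀ (by norm_num) hA2 6
      _ ≤ _ := pm _ _ hk
  have e3 : (A : ℝ) ^ (3 * k0) = (A : ℝ) ^ k0 * (A : ℝ) ^ (2 * k0) := by
    rw [← pow_add]; congr 1; omega
  have e3' : (A : ℝ) ^ (3 * k0) = (A : ℝ) ^ k0 * ((A : ℝ) ^ k0 * (A : ℝ) ^ k0) := by
    rw [← pow_add, ← pow_add]; congr 1; omega
  have hK1 : 1 ≤ A ^ (B * k0) := Nat.one_le_pow _ _ (by omega)
  have h64' : (64 : ℝ) ≤ (A : ℝ) ^ (3 * k0) := h64.trans (pm _ _ (by omega))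
  have hd : (3 * D : ℝ) ≤ (A : ℝ) ^ k0 := by exact_mod_cast hb.d
  refine ⟨hK1, by linarith, hb.c0, hbox, ?_, ?_, ?_, ?_⟩
  · have h1 : ((A ^ (B * k0) : ℕ) : ℝ) ≤ 3 * D * W.card := by exact_mod_cast hsize
    refine h1.trans (mul_le_mul_of_nonneg_right (hd.trans (pm _ _ (by omega))) (Nat.cast_nonneg _))
  · intro z m hm1 hmK
    rcases le_or_gt (A ^ (2 * k0)) m with hm | hm
    · refine (hup z m hm hmK).trans ?_
      exact mul_le_mul_of_nonneg_right (pm _ _ (by omega)) (Nat.cast_nonneg _)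
    · refine (H586.card_filter_box hm1).trans ?_
      have hmR : (m : ℝ) ≤ (A : ℝ) ^ (2 * k0) := by exact_mod_cast hm.le
      have hm0 : (0 : ℝ) ≤ m := Nat.cast_nonneg _
      calc (9 : ℝ) * (m : ℝ) ^ 2 = 9 * (m * m) := by ring
        _ ≤ (A : ℝ) ^ k0 * ((A : ℝ) ^ (2 * k0) * m) := by
            refine mul_le_mul (by linarith) (mul_le_mul_of_nonneg_right hmR hm0) (by positivity)
              (by positivity)
        _ = _ := by rw [e3]; ring
  · intro m hm1 hmK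
    have h1 : ((m * (W.image (R2.H116.cell m)).card : ℕ) : ℝ) ≤
        ((9 * (4 * D * W.card + m) : ℕ) : ℝ) := by exact_mod_cast hcells m hm1
    push_cast at h1
    have hWc : (W.card : ℝ) ≤ (A : ℝ) ^ k0 * ((A ^ (B * k0) : ℕ) : ℝ) := by
      have h2 := hup 0 (A ^ (B * k0)) (Nat.pow_le_pow_right (by omega)
        (Nat.mul_le_mul_right _ hB2)) le_rfl
      have h3 : W.filter (fun w => w - 0 ∈ box (A ^ (B * k0))) = W := by
        refine Finset.filter_true_of_mem (fun w hw => ?_)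
        rw [sub_zero]
        exact hbox w hw
      rw [h3] at h2
      exact h2
    have hmR : (m : ℝ) ≤ ((A ^ (B * k0) : ℕ) : ℝ) := by exact_mod_cast hmK
    have hcl : (45 * D : ℝ) ≤ (A : ℝ) ^ (2 * k0) := by exact_mod_cast hb.cells
    have hDR : (1 : ℝ) ≤ D := by exact_mod_cast hD
    set X : ℝ := (A : ℝ) ^ k0 with hX
    set KK : ℝ := ((A ^ (B * k0) : ℕ) : ℝ) with hKK
    have hKK0 : 0 ≤ KK := Nat.cast_nonneg _
    calc (m : ℝ) * (W.image (R2.H116.cell m)).card ≤ 9 * (4 * D * W.card + m) := h1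
      _ ≤ 9 * (4 * D * (X * KK) + KK) := by
          have h2 : 4 * (D : ℝ) * W.card ≤ 4 * D * (X * KK) :=
            mul_le_mul_of_nonneg_left hWc (by positivity)
          linarith
      _ ≤ 9 * (4 * D * (X * KK) + D * (X * KK)) := by
          have h2 : 1 * (1 * KK) ≤ D * (X * KK) := by
            refine mul_le_mul hDR (mul_le_mul_of_nonneg_right (by linarith) hKK0)
              (by positivity) (by linarith)
          linarith
      _ = (45 * D) * (X * KK) := by ring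
      _ ≤ (A : ℝ) ^ (2 * k0) * (X * KK) :=
          mul_le_mul_of_nonneg_right hcl (by positivity)
      _ = _ := by rw [e3]; ring
  · have h1 : Nat.log 2 (A ^ (B * k0)) < A * (B * k0) := by
      refine Nat.log_lt_of_lt_pow (by positivity) ?_
      have h0 : 0 < B * k0 := Nat.mul_pos (by omega) (by omega)
      calc A ^ (B * k0) < (2 ^ A) ^ (B * k0) := Nat.pow_lt_pow_left (Nat.lt_two_pow_self) (by omega)
        _ = 2 ^ (A * (B * k0)) := by rw [← pow_mul]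
    have h2 := hb.lg
    have h3 : Nat.log 2 (A ^ (B * k0)) + 1 ≤ A ^ (3 * k0) := by
      have : A * (B * k0) = A * B * k0 := by ring
      omega
    exact_mod_cast h3

end

theorem pts_blk (g : ℕ → ℤ × ℤ) (l : ℕ) (z : ℤ × ℤ) (j : ℕ) :
    H586.pts (fun n => g n - z) l j = H938.blk g l z j := rfl

/-- **Soft windows do not exist.** -/
theorem nowin (hcomb : Comb) : Spec_NOWIN := by
  obtain ⟨E, hE, hc⟩ := hcomb
  obtain ⟨B, hBdef⟩ : ∃ B : ℕ, B = 164 * E := ⟨_, rfl⟩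
  have hB2 : 2 ≤ B := by omega
  have hB1 : 1 ≤ B := by omega
  have hBR : (164 : ℝ) ≤ B := by
    have : 164 ≤ B := by omega
    exact_mod_cast this
  have hB0 : (0 : ℝ) < B := by linarith
  refine ⟨B, 1 / (512 * (B : ℝ) ^ 2), hB2, by positivity, fun D₀ A ρ hA hρ => ?_⟩
  obtain ⟨D, hDdef⟩ : ∃ D : ℕ, D = max D₀ 1 := ⟨_, rfl⟩
  have hD1 : 1 ≤ D := by rw [hDdef]; exact le_max_right _ _
  have hD0 : D₀ ≤ D := by rw [hDdef]; exact le_max_left _ _
  obtain ⟨K1, hK1⟩ := H586.up_win B hB1 D A ρ hA hρ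
  obtain ⟨K2, hK2⟩ := exists_big (A := A) (B := B) (D := D) hA hB1 hρ
  refine ⟨K1 + K2, fun k0 hk0 r l Nb g P q β hg₀ h => ?_⟩
  have hg : IPath D g := IPath.mono hD0 hg₀
  have hbig := hK2 k0 (by omega)
  have hk6 := hbig.k4
  set ε : ℝ := 1 / (512 * (B : ℝ) ^ 2) with hε
  set e₁ : ℝ := 1 / (64 * (B : ℝ)) with he₁
  have hε1 : 128 * (B : ℝ) ^ 2 * ε ≤ 1 := by
    rw [hε]; field_simp; norm_num
  have he1 : 64 * (B : ℝ) * e₁ ≤ 1 := by
    rw [he₁]; field_simp; norm_num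
  have he1pos : 0 < e₁ := by rw [he₁]; positivity
  have hA1 : 1 ≤ A := by omega
  set G : Finset ℕ := (range Nb).filter (fun j => lav B r k0 l g P q j ≤ e₁) with hG
  -- number of good blocks
  have hbad := card_bad h (e := e₁)
  have hsplit := Finset.card_filter_add_card_filter_not (s := range Nb)
    (fun j => lav B r k0 l g P q j ≤ e₁)
  have hbad8 : 8 * ((range Nb).filter (fun j => ¬ lav B r k0 l g P q j ≤ e₁)).card ≤ Nb := by
    have h1 : ((range Nb).filter (fun j => ¬ lav B r k0 l g P q j ≤ e₁)) =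
        ((range Nb).filter (fun j => e₁ < lav B r k0 l g P q j)) := by
      refine Finset.filter_congr (fun j _ => ?_)
      rw [not_le]
    rw [h1]
    have h2 : 8 * (((range Nb).filter (fun j => e₁ < lav B r k0 l g P q j)).card : ℝ) ≤ Nb := by
      have h3 : e₁ * (8 * (((range Nb).filter (fun j => e₁ < lav B r k0 l g P q j)).card : ℝ))
          ≤ e₁ * Nb := by
        calc e₁ * (8 * (((range Nb).filter (fun j => e₁ < lav B r k0 l g P q j)).card : ℝ))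
            = 8 * (e₁ * (((range Nb).filter (fun j => e₁ < lav B r k0 l g P q j)).card : ℝ)) := by
              ring
          _ ≤ 8 * (ε * Nb) := by linarith
          _ = (8 * ε) * Nb := by ring
          _ ≤ e₁ * Nb := by
              refine mul_le_mul_of_nonneg_right ?_ (Nat.cast_nonneg _)
              rw [hε, he₁, mul_one_div, div_le_div_iff₀ (by positivity) (by positivity)]
              nlinarith
      exact le_of_mul_le_mul_left h3 he1pos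
    exact_mod_cast h2
  rw [Finset.card_range] at hsplit
  have hGc : 7 * Nb ≤ 8 * G.card := by rw [hG]; omega
  have hGf : G.filter (fun j => j < Nb) = G := by
    refine Finset.filter_true_of_mem (fun j hj => ?_)
    rw [hG, Finset.mem_filter, Finset.mem_range] at hj
    exact hj.1
  -- the cut
  set KA : ℕ := A ^ (B * k0) with hKA
  have hlD : l * D ≤ KA := (Nat.mul_le_mul_right _ h.l_le).trans hbig.ld
  have hl1 := h.l_pos
  obtain ⟨z, G', hG'G, hG'N, hG'ne, hG'box, hG'size, hG'cells⟩ :=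
    H938.cut_piece hg.inj hD1 (step_box hg) hl1 (KA - l * D) Nb G (by
      rw [hGf]
      have h1 : (2 * (KA - l * D) + 1) ^ 2 ≤ (3 * KA) ^ 2 := by
        refine Nat.pow_le_pow_left ?_ 2
        have : 1 ≤ KA := Nat.one_le_pow _ _ (by omega)
        omega
      have h2 : 24 * k0 ^ 4 * KA ^ 2 < KA ^ 3 := by
        have h3 := hbig.cut
        have h4 : 0 < KA ^ 2 := by positivity
        calc 24 * k0 ^ 4 * KA ^ 2 < KA * KA ^ 2 := Nat.mul_lt_mul_of_pos_right h3 h4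
          _ = KA ^ 3 := by ring
      have h3 : KA ^ 3 ≤ Nb * l := by
        refine le_trans (le_of_eq ?_) h.long
        rw [hKA, ← pow_mul]
        congr 1
        ring
      have h4 : 24 * KA ^ 2 < Nb := by
        by_contra hcon
        push Not at hcon
        have h5 : Nb * l ≤ (24 * KA ^ 2) * k0 ^ 4 := Nat.mul_le_mul hcon h.l_le
        have h6 : (24 * KA ^ 2) * k0 ^ 4 = 24 * k0 ^ 4 * KA ^ 2 := by ring
        omega
      have h5 : (3 * KA) ^ 2 = 9 * KA ^ 2 := by ring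
      omega)
  -- pass to the translated path
  have hg' := IPath.shift hg z
  have h' := SoftWin.shift h z
  set g' : ℕ → ℤ × ℤ := fun n => g n - z with hg'def
  set q' := shq r q z with hq'
  set W : Finset (ℤ × ℤ) := G'.biUnion (H586.pts g' l) with hW
  have hWc : W.card = l * G'.card := by
    rw [hW, Finset.card_biUnion (fun j _ j' _ hjj' => H586.disj_pts hg'.inj hjj')]
    rw [Finset.sum_congr rfl (fun j _ => H586.card_pts hg'.inj l j), Finset.sum_const, smul_eq_mul,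
      Nat.mul_comm]
  have hgood : ∀ j ∈ G', ∑ k ∈ Ico k0 (B * k0), 1 / (k : ℝ) *
      av (P k) (fun p => H416.rel r q' g' l p j) ≤ e₁ := by
    intro j hj
    have h1 := hG'G hj
    rw [hG, Finset.mem_filter] at h1
    have h2 := h1.2
    rw [lav] at h2
    simp only [hq', hg'def, rel_shq]
    exact h2
  have hWbox : ∀ w ∈ W, w ∈ box KA := by
    intro w hw
    rw [hW, Finset.mem_biUnion] at hw
    obtain ⟨j, hj, hw⟩ := hw
    have h1 := hG'box j hj w hw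
    rwa [Nat.sub_add_cancel hlD] at h1
  have hsize : KA ≤ 3 * D * W.card := by
    rw [hWc]
    have h1 : 1 ≤ G'.card := hG'ne.card_pos
    have h2 : l * D ≤ D * (l * G'.card) := by
      calc l * D = D * (l * 1) := by ring
        _ ≤ D * (l * G'.card) := Nat.mul_le_mul_left _ (Nat.mul_le_mul_left _ h1)
    have h3 : KA ≤ 2 * D * (l * G'.card) + l * D := by omega
    calc KA ≤ 2 * D * (l * G'.card) + l * D := h3
      _ ≤ 2 * D * (l * G'.card) + D * (l * G'.card) := by omega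
      _ = 3 * D * (l * G'.card) := by ring
  have hUp : Up W KA ((A : ℝ) ^ (3 * k0)) := by
    refine up_of (ρ := ρ) hA hD1 hbig hWbox hsize ?_ hB2 ?_
    · exact hK1 k0 (by omega) ε e₁ hε1 he1 r l Nb g' P q' β hg' h' G' hgood
    · intro m hm
      rw [hWc]
      exact hG'cells m hm
  -- the two levels
  have hsel : ∀ a b : ℕ, k0 ≤ a → a ≤ b → b ≤ B * k0 → b = 2 * a →
      ∃ k ∈ Ico a b, ∃ P' ⊆ P k, (P k).card ≤ 2 * P'.card ∧ ∀ p ∈ P',
        (p : ℝ) * ∑ w ∈ W, qa r q' p w ≤ 1 / 16 * W.card ∧ β p ≤ 1 / B := by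
    intro a b ha hab hb hba
    refine H586.level_win hg' h' (by omega) hρ hG'ne (ε₁ := e₁) (θ := 1 / 2) hgood
      (by omega) ha hab hb (by norm_num) ?_ (by norm_num) (by positivity) ?_ ?_
    · rw [hba]; push_cast; linarith
    · rw [he₁, mul_one_div, div_le_iff₀ (by positivity)]
      linarith
    · rw [hε, mul_one_div, div_le_iff₀ (by positivity)]
      have : (1 / 2 * (1 / (B : ℝ))) * (512 * (B : ℝ) ^ 2) = 256 * B := by
        field_simp; ring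
      rw [this]
      linarith
  have hEk : 1 ≤ E * k0 := Nat.mul_pos hE (by omega)
  have hEk0 : k0 ≤ E * k0 := Nat.le_mul_of_pos_left _ hE
  have hBk : B * k0 = 164 * (E * k0) := by rw [hBdef]; ring
  obtain ⟨k1, hk1, P1, hP1, hc1, hm1⟩ := hsel (3 * (E * k0)) (6 * (E * k0)) (by omega) (by omega)
    (by omega) (by ring)
  obtain ⟨k2, hk2, P2, hP2, hc2, hm2⟩ := hsel (20 * (E * k0)) (40 * (E * k0)) (by omega)
    (by omega) (by omega) (by ring)
  rw [Finset.mem_Ico] at hk1 hk2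
  have hk1' : k1 ∈ Ico k0 (B * k0) := by rw [Finset.mem_Ico]; omega
  have hk2' : k2 ∈ Ico k0 (B * k0) := by rw [Finset.mem_Ico]; omega
  have hrng : ∀ k ∈ Ico k0 (B * k0), ∀ P' ⊆ P k, ∀ p ∈ P', A ^ k < p ∧ p ≤ A * A ^ k := by
    intro k hk P' hP' p hp
    have := h.rng k hk p (hP' hp)
    rw [pow_succ, Nat.mul_comm] at this
    exact this
  have hmass : ∀ P' : Finset ℕ, (∀ p ∈ P', (p : ℝ) * ∑ w ∈ W, qa r q' p w ≤ 1 / 16 * W.card ∧
      β p ≤ 1 / B) → ∀ p ∈ P', 16 * ((p : ℝ) * ∑ w ∈ W, H141.qa r q' p w) ≤ W.card := by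
    intro P' hP' p hp
    have := (hP' p hp).1
    have e : ∑ w ∈ W, H141.qa r q' p w = ∑ w ∈ W, qa r q' p w := rfl
    rw [e]
    linarith
  refine hc ((A : ℝ) ^ (3 * k0)) W KA A (A ^ k1) (A ^ k2) hUp hA ?_ r P1 P2 q' q'
    (fun p hp => h.rts k1 hk1' p (hP1 hp)) (fun p hp => h.rts k2 hk2' p (hP2 hp))
    (hrng k1 hk1' P1 hP1) (hrng k2 hk2' P2 hP2) (many_of h hρ hbig hk1' hc1)
    (many_of h hρ hbig hk2' hc2) (law_of h' hA hB1 hk1' hP1 (fun p hp => (hm1 p hp).2))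
    (law_of h' hA hB1 hk2' hP2 (fun p hp => (hm2 p hp).2)) (hmass P1 hm1) (hmass P2 hm2) ?_ ?_ ?_
  · have hA1R : (1 : ℝ) ≤ A := by exact_mod_cast hA1
    calc (A : ℝ) = (A : ℝ) ^ 1 := (pow_one _).symm
      _ ≤ (A : ℝ) ^ (3 * k0) := pow_le_pow_right₀ hA1R (by omega)
  · have hA1R : (1 : ℝ) ≤ A := by exact_mod_cast hA1
    rw [← pow_mul]
    push_cast
    refine pow_le_pow_right₀ hA1R ?_
    have : 3 * k0 * E = 3 * (E * k0) := by ring
    omega
  · have e1 : 2 * A * A ^ k1 ≤ A ^ (k1 + 2) := by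
      calc 2 * A * A ^ k1 ≤ A * A * A ^ k1 := Nat.mul_le_mul_right _ (Nat.mul_le_mul_right _ hA)
        _ = A ^ (k1 + 2) := by ring
    calc (2 * A * A ^ k1) ^ 3 ≤ (A ^ (k1 + 2)) ^ 3 := Nat.pow_le_pow_left e1 3
      _ = A ^ ((k1 + 2) * 3) := by rw [← pow_mul]
      _ ≤ A ^ k2 := Nat.pow_le_pow_right (by omega) (by omega)
  · have e1 : 2 * A * A ^ k2 ≤ A ^ (k2 + 2) := by
      calc 2 * A * A ^ k2 ≤ A * A * A ^ k2 := Nat.mul_le_mul_right _ (Nat.mul_le_mul_right _ hA)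
        _ = A ^ (k2 + 2) := by ring
    calc (2 * A * A ^ k2) ^ 4 ≤ (A ^ (k2 + 2)) ^ 4 := Nat.pow_le_pow_left e1 4
      _ = A ^ ((k2 + 2) * 4) := by rw [← pow_mul]
      _ ≤ KA := by
        rw [hKA]
        exact Nat.pow_le_pow_right (by omega) (by omega)

end Vale.Agent.P015.H301
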